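import Crest.Agent.X212.Nk89.Geo
import Crest.Agent.X212.Map77.Row

/-! # Row 212, RF-COK: a small weight for the frame of a parameter; directions inside a clopen set -/

set_option autoImplicit false
set_option linter.unusedSectionVars false
noncomputable section
open scoped Manifold ContDiff Topology InnerProductSpace NNReal
open MeasureTheory Set Function Filter

namespace Crest.Agent.X212.Cok75
open An An.Pre Sob92 Ell97 Prm93 Mod61 Map77 Nk89 Gl67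

variable {E : Type} [NormedAddCommGroup E] [NormedSpace ℝ E] [FiniteDimensional ℝ E]
  [MeasurableSpace E] [BorelSpace E]
  {HM : Type} [TopologicalSpace HM] {I : ModelWithCorners ℝ E HM} [I.Boundaryless]
  {M : Type} [TopologicalSpace M] [ChartedSpace HM M] [IsManifold I ∞ M]
  [MeasurableSpace M] [T2Space M] [BorelSpace M] [SecondCountableTopology M]
  {ι κ : Type} [Fintype ι] [Fintype κ] {lam : Type} [Fintype lam]
  {T : Type} [NormedAddCommGroup T] [NormedSpace ℝ T]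

theorem wm_le_wm (F F' : Pre I M ι) {ν ν' : Measure M} {ψ ψ' : M → ℝ} (c : Continuous ψ)
    (c' : Continuous ψ') (e : F.μ = wm ν ψ) (e' : F'.μ = wm ν' ψ') {K : Set M} (hK : IsCompact K)
    (h : ν'.restrict Kᶜ = ν.restrict Kᶜ) {C : ℝ} (hC : ∀ x, ψ' x - ψ x ≤ C) :
    ∃ c : ℝ≥0, F'.μ ≤ c • F.μ := by
  obtain ⟨a, ha⟩ := meas_le_compact F F' hK
  refine ⟨a + (Real.exp (2 * C)).toNNReal, ?_⟩
  rw [← Measure.restrict_add_restrict_compl (μ := F'.μ) hK.measurableSet, add_smul]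
  refine add_le_add ha ?_
  have k : ∀ (μ : Measure M) (φ : M → ℝ), (wm μ φ).restrict Kᶜ = wm (μ.restrict Kᶜ) φ := fun μ φ =>
    restrict_withDensity hK.measurableSet.compl _
  have : wm ν ψ' = wm F.μ (ψ' - ψ) := by rw [e, wm_wm c (c'.sub c), add_sub_cancel]
  rw [e', k, h, ← k, this]
  exact Measure.restrict_le_self.trans (wm_le hC)

theorem exists_wt {𝔉 : Fam I M (Option κ) lam T} {δ : ℝ} (X : Ends 𝔉 δ) {t : T} (ht : t ∈ 𝔉.Q) :
    ∃ (ψ : M → ℝ) (h : Sm I ψ), (∀ x, ∑ a, (𝔉.G t).F.D a ψ x ^ 2 ≤ 1 / 4) ∧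
      Tw 𝔉.F0 (wt (𝔉.G t).F ψ h) := by
  have sψ := X.wt.sm
  obtain ⟨L, hL⟩ := X.cov.bddAbove_image sψ.continuous.continuousOn
  have c1 : ContDiff ℝ ∞ fun s => ka (s - L) := cd_ka.comp (contDiff_id.sub contDiff_const)
  have s1 : Sm I fun x => ka (X.ψ x - L) := c1.contMDiff.comp sψ
  have d : ∀ a, (𝔉.G t).F.D a (fun x => ka (X.ψ x - L)) =
      fun x => Real.smoothTransition (X.ψ x - L) • (𝔉.G t).F.D a X.ψ x := fun a => funext fun x => by
    rw [D_comp sψ c1, ((ka_deriv _).comp_sub_const _ L).deriv, smul_eq_mul]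
  have m := X.ok.mix t ht
  have cS := fun a b => (X.ok.sS a b).cb t ht
  have c0 : ∀ b, 𝔉.F0.Cb (𝔉.F0.D b X.ψ) := fun b => X.wt.toWtP.Cb.2 (X.wt.toWtP.D b X.ψ ▸ X.dψ b)
  obtain ⟨C, hC⟩ := Cb_unif c0
  obtain ⟨D, hD⟩ := Cb_unif (F := (𝔉.G t).F.toPre)
    (f := fun a => (𝔉.G t).F.D a fun x => ka (X.ψ x - L)) fun a => by
      rw [d, m.D]
      exact m.Cb cS (Cb_smul ⟨_, (cd_st L).contMDiff.comp sψ, fun k =>
        CB_comp sψ (fun a => (hC a).2 k) (cd_st L) (bd_st k L)⟩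
        (Cb_sum _ fun b _ => Cb_smul (cS a b) (c0 b)))
  have w := wt_wt (𝔉.G t).F s1
  have e : (𝔉.G t).F.μ.restrict (⋃ a, (X.P a).U X.R)ᶜᶜ = 𝔉.G0.F.μ.restrict (⋃ a, (X.P a).U X.R)ᶜᶜ := by
    rw [compl_compl]; exact Measure.restrict_iUnion_congr.2 fun a => (X.okP a).μ t ht
  refine ⟨_, s1, fun x => ?_, X.ok.tame,
    ⟨_, w.tame (X.ok.tameG t ht).choose_spec (fun _ => ka_nonneg _) hD⟩,
    ⟨⟨_, m, cS⟩, wm_le_wm _ _ sψ.continuous s1.continuous X.wt.μ w.μ X.cov e (C := |L|) fun x => ?_⟩,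
    ⟨_, mix_inv X.ok ht, fun a b => w.toWtP.Cb.2 (m.Cb cS ((X.ok.sSi a b).cb t ht))⟩,
    wm_le_wm _ _ s1.continuous sψ.continuous w.μ X.wt.μ X.cov e.symm (C := L + 1) fun x => ?_⟩
  · simp only [d, smul_eq_mul, mul_pow, ← Finset.mul_sum]
    by_cases hx : x ∈ ⋃ a, (X.P a).U X.R
    · obtain ⟨a, ha⟩ := mem_iUnion.1 hx
      have h4 := X.sml x
      simp only [Pre.D_def, Met55.dv_vcongr ((X.okP a).G_e X.ok ht ha _).symm] at h4
      refine (mul_le_of_le_one_left (Finset.sum_nonneg fun _ _ => sq_nonneg _)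
        (pow_le_one₀ (Real.smoothTransition.nonneg _) (Real.smoothTransition.le_one _))).trans h4
    · rw [Real.smoothTransition.zero_of_nonpos (sub_nonpos.2 (hL ⟨x, hx, rfl⟩))]; norm_num
  · have := X.ψ0 x
    rcases le_total 0 (X.ψ x - L) with k | k
    · linarith [ka_lip k, ka_zero le_rfl, neg_abs_le L]
    · linarith [ka_zero k, abs_nonneg L]
  · rcases le_total 1 (X.ψ x - L) with k | k
    · linarith [ka_lin le_rfl k, ka_nonneg 1]
    · linarith [ka_nonneg (X.ψ x - L)]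

variable {𝔉 : Fam I M ι lam T} {o : Ref 𝔉} {Fs : T → Fr I M ι} {r n m k : ℕ} {Ω : Set M}

/-- the point `y` with the connection moved by `a` -/
def mv (y : Pnt o r) (a : M → Fm ι o.m.A) (ha : a ∈ Mod61.Hs 𝔉.F0.toPre o.P1) : Pnt o r :=
  ⟨y.α + a, y.φ, y.z, y.t, add_mem y.hα ha, y.hφ, y.ht⟩

variable (Ω) in
/-- the terms do not see the connection on `Ω` -/
def Bl (e : T → PtX M ι lam r n m) (y : Pnt o r) : Prop := ∀ a ha, (∀ z ∉ Ω, a z = 0) →
  (∀ z ∈ 𝔉.Om', (e y.t).D (mv y a ha).cfg z - (𝔉.eq0 r n m y.t).D (mv y a ha).cfg z =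
    (e y.t).D y.cfg z - (𝔉.eq0 r n m y.t).D y.cfg z) ∧
  (∀ z ∈ 𝔉.Om, (e y.t).C (mv y a ha).cfg z - (𝔉.eq0 r n m y.t).C (mv y a ha).cfg z =
    (e y.t).C y.cfg z - (𝔉.eq0 r n m y.t).C y.cfg z) ∧
  (e y.t).S (mv y a ha).cfg = (e y.t).S y.cfg ∧ (e y.t).R (mv y a ha).cfg = (e y.t).R y.cfg

theorem ind_sub {N : Type} [AddCommGroup N] {O : Set M} {a b a' b' c : M → N}
    (h : ∀ z ∈ O, a' z - b' z = a z - b z) :
    O.indicator a' - (O.indicator b' - c) = O.indicator a - (O.indicator b - c) := funext fun z => by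
  by_cases hz : z ∈ O
  · simp only [Pi.sub_apply, indicator_of_mem hz, ← sub_add, h z hz]
  · simp only [Pi.sub_apply, indicator_of_notMem hz]

theorem dif_eq (h : Adj 𝔉 Fs) (hk : 6 ≤ k) {e : T → PtX M ι lam r n m} {y : Pnt o r} (H : Bl Ω e y)
    {f : o.C r k → o.Y n m k} (hf : RepF e f) {a : M → Fm ι o.m.A}
    (ha : a ∈ Mod61.Hs 𝔉.F0.toPre o.P1) (h0 : ∀ z ∉ Ω, a z = 0) :
    f ((mv y a ha).pt k) - f0 o Fs r n m k ((mv y a ha).pt k) =
      f (y.pt k) - f0 o Fs r n m k (y.pt k) := by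
  obtain ⟨r1, r2, r3, r4⟩ := H a ha h0
  obtain ⟨a1, a2, a3⟩ := h.val_f0 (n := n) (m := m) hk y
  obtain ⟨b1, b2, b3⟩ := h.val_f0 (n := n) (m := m) hk (mv y a ha)
  have p := hf.2 y
  have q := hf.2 (mv y a ha)
  refine Y_ext h.toOK (by omega) ((val_sub _ _).trans (((congrArg₂ (· - ·) q.D b1).trans
    ((ind_sub r1).trans (congrArg₂ (· - ·) p.D a1).symm)).trans (val_sub _ _).symm))
    ((val_sub _ _).trans (((congrArg₂ (· - ·) q.C b2).trans
    ((ind_sub r2).trans (congrArg₂ (· - ·) p.C a2).symm)).trans (val_sub _ _).symm))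
    (congrArg₂ (· - ·) ?_ (b3.trans a3.symm))
  exact Prod.ext (q.S.trans (r3.trans p.S.symm)) (q.R.trans (r4.trans p.R.symm))

theorem fd_eq (h : Adj 𝔉 Fs) (hk : 6 ≤ k) (hΩ : IsClopen Ω) {e : T → PtX M ι lam r n m}
    {y : Pnt o r} (H : Bl Ω e y) {f : o.C r k → o.Y n m k} (hf : RepF e f) {v : o.C r k}
    (h1 : ∀ z ∉ Ω, 𝔉.F0.val _ _ v.1 z = 0) (h2 : v.2 = 0) :
    fderiv ℝ f (y.pt k) v = fderiv ℝ (f0 o Fs r n m k) (y.pt k) v := by
  have S := sup0 h.toOK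
  have cχ : 𝔉.F0.Cb (Ω.indicator fun _ => ContinuousLinearMap.id ℝ (Fm ι o.m.A)) :=
    Eqv71.Cb_ind hΩ (Cb_const _)
  have mχ : Maps o.P1 o.P1 (Ω.indicator fun _ => ContinuousLinearMap.id ℝ (Fm ι o.m.A)) :=
    fun x w hw => by by_cases hx : x ∈ Ω <;> simp [hx, hw]
  obtain ⟨L, hL⟩ : ∃ L : 𝔉.F0.H (k + 1) o.P1 →L[ℝ] o.C r k, ∀ a, L a = (𝔉.F0.mulH (k + 1) _ _
      (Ω.indicator fun _ => ContinuousLinearMap.id ℝ (Fm ι o.m.A)) a, 0) :=
    ⟨.inl ℝ _ _ ∘L _, fun _ => rfl⟩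
  have sm := hf.1.sub (h.sm_f0 (n := n) (m := m))
  have U : ∀ a, y.pt k + L a ∈ o.U r k := fun a => by
    rw [hL]; exact (mem_of_eq_of_mem (add_zero y.t) y.ht : y.t + 0 ∈ 𝔉.Q)
  have key : ∀ a, f (y.pt k + L a) - f0 o Fs r n m k (y.pt k + L a) =
      f (y.pt k) - f0 o Fs r n m k (y.pt k) := fun a => by
    induction a using H_ind with
    | hP => exact isClosed_eq (sm.continuousOn.comp_continuous
        (continuous_const.add L.continuous) U) continuous_const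
    | h s =>
      obtain ⟨s', e1, e2⟩ := rep_mulH (k := k + 1) cχ mχ s
      have e3 : y.pt k + L (𝔉.F0.toH _ _ s) = (mv y s'.1 (sec_hs S s')).pt k := by
        rw [hL, e2]
        refine Prod.ext (ofV_eq S (by omega) ?_).symm (add_zero _)
        exact (val_add _ _).trans (congrArg₂ _ (val_ofV y.hα (by omega)) (val_toH S (by omega) _))
      rw [e3]
      exact dif_eq h hk H hf _ fun z hz => by rw [e1]; simp [hz]
  have N := (Mod61.isOpen_U (k := k) h.toOK).mem_nhds (pt_mem y)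
  have a := ((hf.1.contDiffAt N).differentiableAt (by simp)).hasFDerivAt.sub
    (((h.sm_f0 (n := n) (m := m)).contDiffAt N).differentiableAt (by simp)).hasFDerivAt
  have b := HasFDerivAt.comp 0 (by rw [map_zero, add_zero]; exact a)
    ((L.hasFDerivAt (x := 0)).const_add (y.pt k))
  have c := DFunLike.congr_fun (b.unique ((hasFDerivAt_const _ _).congr_of_eventuallyEq
    (.of_forall key))) v.1
  have e : L v.1 = v := (hL _).trans (Prod.ext (val_injective S (by omega : 4 ≤ k + 1) (funext fun z =>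
    (val_mulH S (by omega) cχ mχ _ z).trans (by by_cases hz : z ∈ Ω <;> simp [hz, h1]))) h2.symm)
  rw [ContinuousLinearMap.comp_apply, e] at c
  exact sub_eq_zero.1 c

end Crest.Agent.X212.Cok75
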