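import Crest.Agent.X212.Cok75.Est
import Crest.Agent.X212.Cok75.Wgt

/-! # Row 212, RF-COK: the curvature equation is onto over a positive anti-self-dual component -/

set_option autoImplicit false
set_option linter.unusedSectionVars false
noncomputable section
open scoped Manifold ContDiff Topology InnerProductSpace NNReal
open MeasureTheory Set Function Filter

namespace Crest.Agent.X212.Cok75
open An An.Pre Sob92 Ell97 Prm93 Mod61 Map77 Nk89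

variable {E : Type} [NormedAddCommGroup E] [NormedSpace ℝ E] [FiniteDimensional ℝ E]
  [MeasurableSpace E] [BorelSpace E]
  {HM : Type} [TopologicalSpace HM] {I : ModelWithCorners ℝ E HM} [I.Boundaryless]
  {M : Type} [TopologicalSpace M] [ChartedSpace HM M] [IsManifold I ∞ M]
  [MeasurableSpace M] [T2Space M] [BorelSpace M] [SecondCountableTopology M]
  {ι κ : Type} [Fintype ι] [Fintype κ] {lam : Type} [Fintype lam]
  {T : Type} [NormedAddCommGroup T] [NormedSpace ℝ T] {r n m k : ℕ} {Ω : Set M}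

theorem sm_adjB {V W : Type} [NormedAddCommGroup V] [InnerProductSpace ℝ V] [FiniteDimensional ℝ V]
    [NormedAddCommGroup W] [InnerProductSpace ℝ W] [FiniteDimensional ℝ W] {A : Op M ι V W}
    (F : Fr I M ι) (hp : Sm I A.p) (hσ : ∀ a, Sm I (A.σ a)) (hB : Sm I A.B) : Sm I (A.adj F).B :=
  hp.clm_comp ((sm_tr hB).sub (contMDiff_finsetSum fun a _ =>
    (F.sm_D (sm_tr (hσ a)) a).add ((F.dv_sm a).smul (sm_tr (hσ a)))))

theorem LH_e {V W : Type} [NormedAddCommGroup V] [InnerProductSpace ℝ V] [FiniteDimensional ℝ V]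
    [NormedAddCommGroup W] [InnerProductSpace ℝ W] [FiniteDimensional ℝ W] {A : Op M ι V W}
    {F G G' : Pre I M ι} (h : G'.e = G.e) {p : M → V →L[ℝ] V} {q : M → W →L[ℝ] W} :
    LH F G' k p q A = LH F G k p q A :=
  congrArg (F.lift (k + 1) k p q) (funext fun u => funext fun x => by simp only [Pre.op, D_def, h])

section fam
variable {𝔉 : Fam I M ι lam T} (o : Ref 𝔉)

variable (Ω) in
/-- the bundles cut down to `Ω` -/
def bΩ : Bd M ι (Fin o.m.N) := Wz78.ind (Wz78.bdOf 𝔉.B o.m) Ω ∅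

theorem hy_Ω (h : 𝔉.OK) (hΩ : IsClopen Ω) {G : Fr I M ι} (hG : Tw 𝔉.F0 G) (hP : G.P = 𝔉.B.P) :
    (bΩ Ω o).Hy 𝔉.F0 G :=
  have g : 𝔉.F0.Cb (Ω.indicator o.m.pg) := Eqv71.Cb_ind hΩ ((dat o h).pg h.B (Std94.pmx o.ok))
  ⟨hG, Wz78.ok_ind (Wz78.bdOf_ok h.B o.ok) _ _, hP, cb_P h, o.cρ, g,
    Std94.Kl.idx (K := Std94.cbK 𝔉.F0.toPre) (cb_P h) g,
    Std94.Kl.idx (K := Std94.cbK 𝔉.F0.toPre) (dat o h).sd g,
    Eqv71.Cb_ind isClopen_empty (dat o h).pp, Eqv71.Cb_ind isClopen_empty (dat o h).pm⟩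

theorem sm_Ω (x : M) : (bΩ Ω o).sm x = 0 := indicator_of_notMem (notMem_empty x) _
theorem sp_Ω (x : M) : (bΩ Ω o).sp x = 0 := indicator_of_notMem (notMem_empty x) _

variable {o} {x : M}

theorem p2_in (hx : x ∈ Ω) : (bΩ Ω o).p2 x = o.m.p2 𝔉.B x :=
  congrArg (idx (𝔉.B.sd x)) (indicator_of_mem hx _)

theorem idx_zero {α X : Type} [Fintype α] [NormedAddCommGroup X] [InnerProductSpace ℝ X]
    (S : α → α → ℝ) : idx S (0 : X →L[ℝ] X) = 0 :=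
  ContinuousLinearMap.ext fun v => fm_ext fun a => by simp

theorem p2_off (hx : x ∉ Ω) : (bΩ Ω o).p2 x = 0 :=
  (congrArg (idx (𝔉.B.sd x)) (indicator_of_notMem hx _)).trans (idx_zero _)

theorem p1_off (hx : x ∉ Ω) : (bΩ Ω o).p1 x = 0 :=
  (congrArg (idx fun a b => 𝔉.B.P a b x) (indicator_of_notMem hx _)).trans (idx_zero _)

theorem pC_off (hx : x ∉ Ω) {v : Cf ι (Fin o.m.N)} (h : (bΩ Ω o).pC x v = v) : v = 0 :=
  h ▸ ext2 (by rw [f2_ps, p1_off hx]; simp) (by rw [s2_ps, sp_Ω]; simp)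

theorem pE_off (hx : x ∉ Ω) (v : Ef ι (Fin o.m.N)) : (bΩ Ω o).pE x v = 0 :=
  ext2 (by rw [f2_ps, sm_Ω]; simp) (by rw [s2_ps, p2_off hx]; simp)

variable (h1 : Ω ⊆ 𝔉.Om) (h2 : ∀ x ∈ Ω, x ∉ 𝔉.Om') (hx : x ∈ Ω)
include h1 h2 hx

theorem pC_in (v : Cf ι (Fin o.m.N)) : (bd o).pC x v = (bΩ Ω o).pC x v :=
  ext2 (by
    rw [f2_ps, f2_ps]
    exact congrArg (fun T => idx (fun a b => 𝔉.B.P a b x) T (fa v))
      ((indicator_of_mem (h1 hx) _).trans (indicator_of_mem hx _).symm)) (by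
    rw [s2_ps, s2_ps, sp_Ω]
    exact DFunLike.congr_fun (indicator_of_notMem (h2 x hx) _) _)

theorem pE_in (v : Ef ι (Fin o.m.N)) : (bd o).pE x v = (bΩ Ω o).pE x v :=
  ext2 (by
    rw [f2_ps, f2_ps, sm_Ω]
    exact DFunLike.congr_fun (indicator_of_notMem (h2 x hx) _) _) (by
    rw [s2_ps, s2_ps]
    exact congrArg (fun T => idx (𝔉.B.sd x) T (s2 _ _ v))
      ((indicator_of_mem (h1 hx) _).trans (indicator_of_mem hx _).symm))

end fam

variable {𝔉 : Fam I M (Option κ) lam T} {δ : ℝ} {o : Ref 𝔉}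

theorem surj_Ω (X : Ends 𝔉 δ) (hΩ : IsClopen Ω) (y : Pnt o r)
    (hp : ∀ x ∈ Ω, Lns95.PosW 𝔉.B (𝔉.G y.t) (1 / 2) x)
    (hA : ∀ x ∈ Ω, o.m.p2 𝔉.B x (o.m.Fg (𝔉.G y.t).F (o.W y.t y.α) x) = 0) (k : ℕ) :
    Surjective ((bΩ Ω o).LL 𝔉.F0.toPre (Fs 𝔉 y.t) k (base (o.W y.t y.α) 0)) := by
  obtain ⟨ψ, sψ, h1, h2⟩ := exists_wt X y.ht
  have hG := X.ok.G _ y.ht
  have a : o.m.IsConn 𝔉.B (𝔉.G y.t) (o.W y.t y.α) := (y.ad0 X.ok).conn
  have C : Wz78.Cp (bΩ Ω o) (𝔉.G y.t).F (𝔉.G y.t).F.Gam (o.W y.t y.α) :=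
    (Wz78.cp_of X.ok.B hG o.ok a).ind hΩ isClopen_empty
  have co := est X.ok.B hG o.ok a C (sm_Ω o) (fun _ => p2_in) (fun _ => p2_off) hp hA
  have H := hy_Ω o X.ok hΩ h2 hG.P
  have cu : 𝔉.F0.Cb (base (o.W y.t y.α) (0 : M → o.m.V)) := by
    convert Cb_clm (i1 _ o.m.V ∘L f2 _ o.m.V) (cb_uy X.ok y) using 2 with x
    exact ext2 (by simp [uy, base]) (by simp [base])
  have N := H.nc_lin cu
  have e : (bΩ Ω o).lin (wt (𝔉.G y.t).F ψ sψ) (base (o.W y.t y.α) 0) =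
      (bΩ Ω o).lin (𝔉.G y.t).F (base (o.W y.t y.α) 0) := Bd.lin_congr rfl rfl _
  have cl := cliff_pair (H.toOK.cliff_full H.P (base (o.W y.t y.α) 0)).2
  rw [e] at N cl
  rw [Bd.LL, Bd.lin_congr (G := (𝔉.G y.t).F) (G' := Fs 𝔉 y.t) rfl rfl,
    LH_e (G := (wt (𝔉.G y.t).F ψ sψ).toPre) (G' := (Fs 𝔉 y.t).toPre) rfl]
  have cl' := cliff_pair (H.toOK.cliff_full hG.P (base (o.W y.t y.α) 0)).2
  have co' := coer_wt (wt_wt (𝔉.G y.t).F sψ) N.alg cl' (fun a => (sm_tr (Cb.sm (N.σ a))).neg)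
    (sm_adjB _ (Cb.sm N.p) (fun a => Cb.sm (N.σ a)) (Cb.sm N.B)) h1 co
  exact surj h2 N cl (by norm_num) co' k

/-- **no cokernel over `Ω`** -/
theorem onto (X : Ends 𝔉 δ) (hk : 6 ≤ k) (hΩ : IsClopen Ω) (h1 : Ω ⊆ 𝔉.Om)
    (h2 : ∀ x ∈ Ω, x ∉ 𝔉.Om') (y : Pnt o r) (hp : ∀ x ∈ Ω, Lns95.PosW 𝔉.B (𝔉.G y.t) (1 / 2) x)
    (hA : ∀ x ∈ Ω, o.m.p2 𝔉.B x (o.m.Fg (𝔉.G y.t).F (o.W y.t y.α) x) = 0)
    {e : T → PtX M (Option κ) lam r n m} (H : Bl Ω e y) {f : o.C r k → o.Y n m k} (hf : RepF e f)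
    (w : o.Y n m k) (w1 : w.1 = 0) (w2 : w.2.2 = 0) (w3 : ∀ z ∉ Ω, 𝔉.F0.val k o.P2 w.2.1 z = 0) :
    w ∈ range (fderiv ℝ f (y.pt k)) := by
  have h := adj_rem X.ok
  have S := sup0 X.ok
  have H0 := h.hy o y.ht
  have H1 := hy_Ω o X.ok hΩ (h.tw _ y.ht) (h.P _ y.ht)
  have mC : Maps (bΩ Ω o).pC (bd o).pC fun _ => ContinuousLinearMap.id ℝ _ := fun x v hv => by
    by_cases hx : x ∈ Ω
    · exact (pC_in h1 h2 hx v).trans hv
    · rw [pC_off hx hv, map_zero, map_zero]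
  have mE : Maps (bΩ Ω o).pE (bd o).pE fun _ => ContinuousLinearMap.id ℝ _ := fun x v hv => by
    by_cases hx : x ∈ Ω
    · exact (pE_in h1 h2 hx v).trans hv
    · rw [← hv, pE_off hx, map_zero, map_zero]
  have cχ : 𝔉.F0.Cb (Ω.indicator fun _ => ContinuousLinearMap.id ℝ (Ef (Option κ) (Fin o.m.N))) :=
    Eqv71.Cb_ind hΩ (Cb_const _)
  have mχ : Maps (bd o).pE (bΩ Ω o).pE (Ω.indicator fun _ => ContinuousLinearMap.id ℝ _) :=
    fun x v hv => by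
      by_cases hx : x ∈ Ω
      · rw [indicator_of_mem hx]; exact (pE_in h1 h2 hx v).symm.trans hv
      · rw [indicator_of_notMem hx, _root_.zero_apply, map_zero]
  have cu : 𝔉.F0.Cb (base (o.W y.t y.α) (0 : M → o.m.V)) := by
    convert Cb_clm (i1 _ o.m.V ∘L f2 _ o.m.V) (cb_uy X.ok y) using 2 with x
    exact ext2 (by simp [uy, base]) (by simp [base])
  have key := RepT_eq (RepT_comp (H0.toTw.rep (H0.nc_lin (cb_uy X.ok y)) k)
    (rep_mulH (k := k + 1) (Cb_const _) mC)) (RepT_comp (rep_mulH (k := k) (Cb_const _) mE)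
      (H1.toTw.rep (H1.nc_lin cu) k)) fun u => funext fun x => by
    have pu : ∀ x, (bd o).pC x (u.1 x) = u.1 x := fun x => mC x _ (u.2.2.2 x)
    refine (op_cut _ (Cb.sm H0.cC) u.2.1 pu x).trans
      (Eq.trans ?_ (op_cut _ (Cb.sm H1.cC) u.2.1 u.2.2.2 x).symm)
    by_cases hx : x ∈ Ω
    · have e0 : (o.Φ0 + y.φ) x = 0 := y.off X.ok x (h2 x hx)
      have e : uy y x = base (o.W y.t y.α) 0 x := by simp only [uy, base, e0, Pi.zero_apply]
      rw [pE_in h1 h2 hx]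
      simp only [Pre.op, e]
      rfl
    · have e : u.1 =ᶠ[𝓝 x] fun _ => 0 := (hΩ.1.isOpen_compl.eventually_mem hx).mono fun z hz =>
        pC_off hz (u.2.2.2 z)
      simp only [Pre.op, Pre.D_def, dv_congr e, dv_const, e.self_of_nhds, Pi.zero_apply, map_zero,
        Finset.sum_const_zero, add_zero]
  obtain ⟨x', hx'⟩ := surj_Ω X hΩ y hp hA k (𝔉.F0.mulH k (bd o).pE (bΩ Ω o).pE
    (Ω.indicator fun _ => ContinuousLinearMap.id ℝ _) (sY o n m k w))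
  obtain ⟨Z, hZ⟩ : ∃ Z, Z = 𝔉.F0.mulH (k + 1) (bΩ Ω o).pC (bd o).pC
    (fun _ => ContinuousLinearMap.id ℝ _) x' := ⟨_, rfl⟩
  have vZ : ∀ z, 𝔉.F0.val _ _ Z z = 𝔉.F0.val _ _ x' z := fun z =>
    hZ ▸ val_mulH S (by omega) (Cb_const _) mC x' z
  have e1 : (bd o).LL 𝔉.F0.toPre (Fs 𝔉 y.t) k (uy y) Z = sY o n m k w := by
    refine (congrArg _ hZ).trans (((DFunLike.congr_fun key x').trans (congrArg (𝔉.F0.mulH k _ _ _)
      hx')).trans (val_injective S (by omega : 4 ≤ k) (funext fun z => ?_)))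
    refine (val_mulH S (by omega) (Cb_const _) mE _ z).trans ((val_mulH S (by omega) cχ mχ _ z).trans ?_)
    by_cases hz : z ∈ Ω
    · rw [indicator_of_mem hz]; rfl
    · rw [indicator_of_notMem hz, sY_apply, w1, map_zero, zero_add]
      exact ((val_mulH S (by omega) (Cb_const _) maps_i2 _ z).trans
        ((congrArg _ (w3 z hz)).trans (map_zero _))).symm
  have vS : ∀ z, 𝔉.F0.val _ _ (SH (k + 1) o (𝔉.Si y.t) Z) z = SC o (𝔉.Si y.t) z (𝔉.F0.val _ _ x' z) :=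
    fun z => (val_mulH S (by omega) ((sb_SC o X.ok.sSi).cb _ y.ht)
      (maps_SC o X.ok (X.ok.PSi _ y.ht)) Z z).trans (congrArg _ (vZ z))
  refine ⟨sC' o r k y.t Z, (fd_eq h hk hΩ H hf (fun z hz => ?_) (Prod.ext ?_ rfl)).trans
    ((h.fderiv_f0 hk y Z).trans ((congrArg _ e1).trans ?_))⟩
  · refine (val_mulH S (by omega) (Cb_const _) maps_f2 _ z).trans ?_
    refine (congrArg (f2 _ _) (vS z)).trans ?_
    rw [pC_off hz (val_proj S (by omega) x' z), map_zero, map_zero]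
  · refine val_injective S (by omega : 4 ≤ k + 1) ((funext fun z => ?_).trans val_zero.symm)
    refine (val_mulH S (by omega) (Cb_const _) maps_s2 _ z).trans ?_
    refine (congrArg (s2 _ _) (vS z)).trans ?_
    rw [SC, s2_sm2, ← val_proj S (by omega) x' z, s2_ps, sp_Ω]
    rfl
  · refine Prod.ext ?_ (Prod.ext ?_ w2.symm)
    · change fH _ _ o.Pm o.P2 _ = _
      rw [sY_apply, map_add, fH_iH1, fH_iH2, add_zero]
    · change sH _ _ o.Pm o.P2 _ = _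
      rw [sY_apply, map_add, sH_iH1, sH_iH2, zero_add]

end Crest.Agent.X212.Cok75
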