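import Crest.Agent.X212.Cok75.Fam
import Crest.Agent.X212.Pte3.Sol
import Crest.Agent.X212.Lns95.Van
import Crest.Agent.X212.Mp86.St
import Crest.Agent.X212.Lns4.Neck
import Crest.Agent.X212.Rf65.Pl

/-! # Row 212, RF-COK: no cokernel inside a broken lens wall -/

set_option autoImplicit false
set_option linter.unusedSectionVars false
noncomputable section
open scoped Manifold ContDiff Topology InnerProductSpace
open MeasureTheory Set Function Filter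

namespace Crest.Agent.X212.Cok75
open An M Nd18 Mod61 Nk89 Cht98 Rf65 Eqv71 Wrd81 Pte3
open An.Job (Sol SolOn unc_of)

section job
variable {Wi : Type} {X : Mf 4} {A κ lam : Type} [Fintype A] [Fintype κ] [Fintype lam]
  [DecidableEq lam] {M : Mark X A κ} {W : World M} {N : ML M lam} {Λ : Lns W N}
  {A' h : Type} [Fintype A'] [DecidableEq A'] [Fintype h] {r n : ℕ}
  {J : Job Wi Λ A' h r n} {c : M.Cl} {σ : Cel A'} {q : Wi →₀ ℝ} {s : A' → ℝ} {π : Reg A}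

theorem qtC {x : Cfg (W.Z c).M (Option κ) (lam ⊕ lam) r} {z : (W.Z c).M}
    (k : ∀ i (hi : J.Ac c s i), (J.xs i.1).Triv ∨ z ∉ (J.K c i.1 i.2 _ hi).ψ.target)
    (e : ∀ w, J.co w s = 0 ∨ x.tC (J.B c) (J.G c s).F ((J.tp c).tm (J.tw w)) z = 0) :
    (J.τ c q s).C x z = 0 := by
  have k0 : (J.τ0 c s).C x z = 0 := by
    refine Finset.sum_eq_zero fun i _ => ?_
    split_ifs with hi <;> try rfl
    rcases k i hi with ⟨h3, h4, -⟩ | k
    · have : IsEmpty ((J.xs i.1).N.smul (J.ν i.1 s)).J :=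
        @instIsEmptySum _ _ h3 (@instIsEmptySum _ _ h4 h4)
      simp [ND.q1, Dgr80.DG.q1, Dgr80.DG.gA, Finset.univ_eq_empty, -Fintype.sum_sum_type]
      exact map_zero _
    · exact (Eqv71.van0_q1 _ _).C _ _ k
  have k1 : ∀ w, (J.τw c s w).C x z = 0 := fun w => by
    refine (congrArg₂ (· + ·) ?_ (Finset.sum_eq_zero fun i _ => ?_)).trans (add_zero 0)
    · rcases e w with e | e <;> simp [Pt.smul, An.tmP, e]
    · split_ifs with hi <;> try rfl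
      rcases k i hi with ⟨-, -, k⟩ | k
      · simp [fsum, k]
      · exact (Eqv71.van0_fsum (fun T => Eqv71.van0_q2 _ _ _) _).C _ _ k
  simp [Job.τ, Pt.add, fsum, Finsupp.sum, k0, k1]

theorem tm_off (hJ : J.OK) (hσ : σ ∈ J.𝒦) (hs : J.Ov σ c s) (hπ : M.sys.Piece c.1 π) {Ω : Set X.M}
    {τ : Tm X.M (lam ⊕ lam) r n} (a : Ω ⊆ (M.sys.cores c.1)ᶜ) (b : TmIn X.I Ω τ)
    (d : Disjoint Ω (M.sys.U π)) (x : Cfg (W.Z c).M (Option κ) (lam ⊕ lam) r) {z : (W.Z c).M}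
    (hz : z ∈ W.pc c π) : x.tC (J.B c) (J.G c s).F ((J.tp c).tm τ) z = 0 := by
  obtain ⟨K, -, h3, h4⟩ := ((Tp.in_of (W.φ c) (fun x hx => (Line51.fsm_rl ((Λ.iso J.m c _
    ⟨hJ.par σ hσ s hs.1, hs.2.ge⟩).sm x hx)).contMDiffWithinAt) (W.src c ▸ a)).tm b).supp
      (ι := Option κ)
  refine (h4 _ _ _ _ fun k => ?_).2
  obtain ⟨v, h5, rfl⟩ := h3 k
  exact disjoint_left.1 d h5 ((Cyl58.φ_mem_pc W.toCaps hπ (a h5)).1 hz)

variable {p : Prt A A' h} {U : Type} [Fintype U] {δ : ℝ} {b : Bp J c} {E : EC b p U δ}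

/-- the terms of a chart do not see the connection on a quiet piece without spinor -/
theorem bl (H : CS σ E) (hπ : M.sys.Piece c.1 π) (h2 : ∀ z ∈ W.pc c π, z ∉ W.un c p.P')
    (x : Pnt E.o r) (Q : ∀ x' : Pnt E.o r, x'.t = x.t → ∀ z ∈ W.pc c π,
      (J.τ c q (b.θ p U x.t)).C x'.cfg z = 0) : Bl (W.pc c π) (EC.tot b p U δ q) x := fun a ha h0 => by
  have o := H.ovx x
  have hO := (Cyl58.isClopen_pc W.toCaps hπ).compl
  have t := H.ok.τ_nat H.mem o hO q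
  have a0 : Ad0 x.cfg (J.B c) (J.G c (b.θ p U x.t)) := x.ad0 H.F
  have a1 : Ad0 (mv x a ha).cfg (J.B c) (J.G c (b.θ p U x.t)) := (mv x a ha).ad0 H.F
  have k0 := cr0_refl (Λ.B_ok _ _) (H.ok.G_ok H.mem o) hO.2 a0
    fun z hz => x.off H.F z (h2 z (not_not.1 hz))
  have eW : ∀ z ∉ W.pc c π, ∀ i, (mv x a ha).cfg.W i z = x.cfg.W i z := fun z hz i => by
    simp only [Pnt.cfg, mv, Ref.W, Md.addC, Pi.add_apply, h0 z hz, add_zero]
  have k1 : CR0 (J.B c) (J.G c (b.θ p U x.t)) (J.B c) (J.G c (b.θ p U x.t)) (W.pc c π)ᶜ (W.pc c π)ᶜ id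
      (fun z b a => (J.B c).P b a z) (J.B c).l x.cfg (mv x a ha).cfg x.cfg.m.p 1 :=
    ⟨a0, a1, k0.off, k0.off, k0.e.m, fun z hz i => by
      have := k0.e.W z hz i; simp only [id, eW z hz] at this ⊢; exact this, k0.e.Φ, k0.e.z⟩
  obtain ⟨d1, d2, d3, d4⟩ := tot_ev (b := b) (U := U) (δ := δ) (t := x.t) (q := q) x.cfg
  obtain ⟨e1, e2, e3, e4⟩ := tot_ev (b := b) (U := U) (δ := δ) (t := x.t) (q := q) (mv x a ha).cfg
  refine ⟨fun z hz => ?_, fun z _ => ?_, funext fun i => (e3 i).trans ((congrArg Neg.neg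
    ((t.S k1 i).trans (t.S k0 i).symm)).trans (d3 i).symm), e4.trans d4.symm⟩
  · have hz' : z ∈ (W.pc c π)ᶜ := fun k => h2 z k hz
    rw [d1, e1]
    exact (sub_sub_cancel_left _ _).trans ((congrArg Neg.neg
      ((t.D k1 z hz').trans (t.D k0 z hz').symm)).trans (sub_sub_cancel_left _ _).symm)
  · rw [d2, e2]
    refine (sub_sub_cancel_left _ _).trans ((congrArg Neg.neg ?_).trans (sub_sub_cancel_left _ _).symm)
    by_cases hz : z ∈ W.pc c π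
    · exact (Q (mv x a ha) rfl z hz).trans (Q x rfl z hz).symm
    · exact (t.C k1 z hz).trans (t.C k0 z hz).symm

theorem cok_job (H : CS σ E) (hπ : π ∈ p.P) (h2 : ∀ z ∈ W.pc c π, z ∉ W.un c p.P')
    {y : J.Obc c} {x : Pnt E.o r} {ψ : E.K} (S : SolOn p σ q y) (R : E.RepC y x ψ)
    (hp : ∀ z ∈ W.pc c π, Lns95.PosW (J.B c) (J.G c (b.θ p U x.t)) (1 / 2) z)
    (Q : ∀ x' : Pnt E.o r, x'.t = x.t → ∀ z ∈ W.pc c π, (J.τ c q (b.θ p U x.t)).C x'.cfg z = 0)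
    {f : E.o.C r 8 → E.o.Y n (min r 1) 8} (hf : RepF (EC.tot b p U δ q) f)
    (e : E.o.Y n (min r 1) 8) (e1 : e.1 = 0) (e2 : e.2.2 = 0)
    (e3 : ∀ z ∉ W.pc c π, (b.F p U δ).F0.val 8 E.o.P2 e.2.1 z = 0) :
    e ∈ range (fderiv ℝ f (x.pt 8)) := by
  obtain ⟨u, ζ, k, -⟩ := R.e
  have h1 : W.pc c π ⊆ W.un c p.P := fun z hz => mem_un.2 ⟨π, hπ, hz⟩
  refine onto H.ee (by norm_num) (Cyl58.isClopen_pc _ (H.pok.pc π hπ)) h1 h2 x hp (fun z hz => ?_)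
    (bl H (H.pok.pc π hπ) h2 x Q) hf e e1 e2 e3
  have := (((tot_ev (δ := δ) x.cfg).2.1 z).symm.trans ((H.zr S R.s k).C z (h1 hz)))
  rw [Cfg.eC, Q x rfl z hz, x.off H.F z (h2 z hz), sub_zero, show x.cfg.m.mu (J.B c) z 0 0 = 0 by
    simp [Md.mu, ← Wz78.qL_apply, WithLp.toLp_zero, Pi.zero_def.symm], sub_zero] at this
  exact this

/-- the inner piece is quiet at all points of a chart -/
theorem qe (H : CS σ E) (hπ : π ∈ p.P) (hs : J.Ov σ c s) {x : Pnt E.o r} (R : ∀ a : p.V, x.t.1 a = s a)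
    (h1 : ∀ w, J.co w s = 0 ∨ ∃ Ω ⊆ (M.sys.cores c.1)ᶜ, TmIn X.I Ω (J.tw w) ∧ Disjoint Ω (M.sys.U π))
    (h2 : ∀ a b', J.Ac c (b.θ p U x.t) (a, b') → (J.xs a).Triv ∨ Disjoint (M.sys.w a).band (M.sys.U π))
    (x' : Pnt E.o r) (ht : x'.t = x.t) (z : (W.Z c).M) (hz : z ∈ W.pc c π) :
    (J.τ c q (b.θ p U x.t)).C x'.cfg z = 0 := by
  have o := H.ovx x
  have k := H.pok.pc π hπ
  refine qtC (fun i hi => (h2 _ _ hi).imp id fun d e => ?_) fun w => ?_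
  · obtain ⟨v, h3, rfl⟩ := (H.ok.nk _ _ _ _ hi).exists_nj hi e
    exact disjoint_left.1 d ⟨v, rfl⟩ ((Cyl58.φ_mem_pc W.toCaps k h3).1 hz)
  rcases (H.pok.loc _ _ hs o (θ_eq R)).2.2.1 w with e | e
  · exact (h1 w).imp (e ▸ ·) fun ⟨Ω, a, b, d⟩ => tm_off H.ok H.mem o k a b d _ hz
  · have a0 : Ad0 x'.cfg (J.B c) (J.G c (b.θ p U x.t)) := ht ▸ x'.ad0 H.F
    exact .inr ((van_tm H.cl (tame_W W J.m (H.ok.memO H.mem o)) a0 (fun z hz => x'.off H.F z fun k =>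
      hz (H.F.sub k)) (Job.van_tp H.pok.pc e)).1 z (mem_un.2 ⟨π, hπ, hz⟩)).2

end job

section scene
open G75 Ins26 Jb7 Lns95
variable {κ lam : Type} [Fintype κ] [Fintype lam] [DecidableEq lam] {Lm : LM κ lam}

/-- **LEAF COK** -/
theorem cok {n' : ℕ} (K : LOK Lm n') : CokStmt Lm := fun S D i Wi r n J X a₀ j n₀ T c gx _ pj =>
  ⟨1, one_pos, fun δ _ => Sml.of fun Adm σ hc h1 lx _ q y x hq hy f =>
    .inr fun b E x' ψ gd f' hf e e1 e2 e3 => by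
  have hx : x ∈ c.1 := f.2.1.ge rfl
  have cx : x ∈ cylW c := ⟨hx, f.2.2.1⟩
  have hl : x ∈ S.ls := hc cx
  have pc : ∀ b, S.M.sys.Piece c.1 (hp x b) := fun b => f.2.1 ▸ Mp86.St.piece_hp b
  have pok := h1.loc.pok σ h1.mem c {hp x true, hp x false} {hp x true} univ
    (by rintro _ (rfl | rfl) <;> exact pc _) (by rintro _ rfl; exact .inl rfl)
  have H : CS σ E := ⟨⟨gx.ok, h1.mem, pok⟩, gd.ch.ok, gd.ch.ov, gd.sm⟩
  have e0 : hp x false x = some false := Mp86.St.hp_some.2 ⟨rfl, rfl⟩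
  have nf := (lx.2 σ h1.mem q y ⟨x, hl⟩ hq hy hx).1
  have o := H.ovx x'
  have o1 : (J.Θ (b.θ _ _ x'.t)).2 x = 1 := o.2.ge hx
  have hU := U_in gx.sc hl e0 (pc false).toIsReg
  refine cok_job (π := hp x false) H (.inr rfl) (fun z hz k => ?_) (y := y) ⟨hy.cell, hy.inf,
    hy.sol.toAdm, fun z hz => ?_, fun z _ => hy.sol.D z, fun z _ => hy.sol.C z, hy.sol.S,
    fun i hi => hy.cut i (hy.H_eq f.2.2.2.1.1 ▸ unc_of pok.pc (pok.nb i hi)),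
    fun a b ha _ => hy.lim a b ha, fun a ha b _ => hy.crit a ha b, hy.int.integrableOn⟩ gd.ch.rep
    (fun z hz => K.posW gx.sc D ⟨x, hl⟩ (gx.ok.memBr h1.mem o) (o1 ▸ one_ne_zero) i Lns4.neck
      (gx.ok.memO h1.mem o) J.m (pc_in gx.sc hl e0 (pc false).toIsReg _ c ▸ hz))
    (qe H (.inr rfl) hy.ov gd.ch.rep.s (fun w => (em _).imp id fun k => ⟨_, fun z hz => ?_,
      (gx.van σ h1.mem y.s hy.cell ⟨x, hl⟩ (gx.ok.eq_one h1.mem hy.ov ?_ hx) w).1 k,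
      hU ▸ (S.M.sys.w x).dj⟩) fun a b' ha => ?_) hf e e1 e2 e3
  · obtain ⟨_, rfl, k⟩ := mem_un.1 k
    simpa [hp] using congrFun (Cyl58.pc_unique _ (pc _) (pc _) hz k) x
  · obtain ⟨π, h2, h3⟩ := Cyl58.exists_pc D.W.toCaps z
    rcases Mp86.St.eq_hp (f.2.1 ▸ h2) with rfl | rfl
    exacts [(hz (mem_un.2 ⟨_, rfl, h3⟩)).elim, Job.Obc.zero nf h3]
  · simpa [Sys.cores, f.2.1] using fun h => h true hz
  · rw [gx.hd]; exact if_pos (.inr (.inl hl))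
  by_cases k : a = x
  · exact .inl (k ▸ ⟨(pj.nil x cx).1.J0, (pj.nil x cx).1.J2, congrFun (pj.nil x cx).2⟩)
  have h2 : (J.Θ (b.θ _ _ x'.t)).2 a ≠ 0 := by
    rcases b' with _ | b'
    · linarith [ha.2.2.2.2.2]
    · exact (show (J.Θ _).2 a = 1 from ha.2.1.2 ha.2.2.2) ▸ one_ne_zero
  refine .inr (hU ▸ disjoint_left.2 fun z hz k' => (S.M.sys.w x).not_mem_sd k' ?_)
  exact gx.sc.lsi x hl a k (ha.2.1.1.2 h2 (o1 ▸ one_ne_zero : (J.Θ _).2 x ≠ 0) k) hz⟩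

end scene

end Crest.Agent.X212.Cok75
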