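import Crest.Agent.X212.Ell97.Loc
import Crest.Agent.X212.Map77.Qm
import Crest.Agent.X212.Nk89.Wt

/-!
# Row 212 (helper75): a coercive adjoint makes a first order operator onto
-/

set_option autoImplicit false
set_option linter.unusedSectionVars false
noncomputable section
open scoped Manifold ContDiff Topology InnerProductSpace
open MeasureTheory Set Function Filter

namespace Crest.Agent.X212.Cok75
open An An.Pre Sob92 Ell97 Prm93 Map77 Nk89

theorem LL_surj {X Y : ℕ → Type*} [∀ k, NormedAddCommGroup (X k)]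
    [∀ k, InnerProductSpace ℝ (X k)] [∀ k, NormedAddCommGroup (Y k)]
    [∀ k, InnerProductSpace ℝ (Y k)] [∀ k, CompleteSpace (X k)] [∀ k, CompleteSpace (Y k)]
    (P : Half X Y) {c : ℝ} (hc : 0 < c) (h : ∀ v, c * ‖P.i 0 v‖ ^ 2 ≤ ‖P.L 0 v‖ ^ 2) (k : ℕ)
    (f : X k) : ∃ x, P.LL k x = f := by
  have n : ‖P.G0‖ < 1 := by
    refine (P.G0.opNorm_le_bound (M := 1 / (1 + c)) (by positivity) fun f => ?_).trans_lt
      ((div_lt_one (by linarith)).2 (by linarith))
    have h1 := P.inner_Q (P.G 0 f) (P.G 0 f)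
    rw [P.Q_G, real_inner_self_eq_norm_sq, real_inner_self_eq_norm_sq] at h1
    have h2 := h (P.i 1 (P.G 0 f))
    have h3 := real_inner_le_norm f (P.i 0 (P.i 1 (P.G 0 f)))
    change ‖P.i 0 (P.i 1 (P.G 0 f))‖ ≤ _
    rw [div_mul_eq_mul_div, one_mul, le_div_iff₀ (by linarith)]
    rcases (norm_nonneg (P.i 0 (P.i 1 (P.G 0 f)))).eq_or_lt with e | e
    · rw [← e, zero_mul]; exact norm_nonneg _
    · nlinarith
  have t : (P.LL 0).range = ⊤ := eq_top_iff.2 fun g _ => by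
    obtain ⟨u, hu⟩ := isUnit_one_sub_of_norm_lt_one n
    refine ⟨P.G 0 ((↑u⁻¹ : X 0 →L[ℝ] X 0) g), ?_⟩
    have e := congrArg (fun T : X 0 →L[ℝ] X 0 => T g) u.mul_inv
    rw [hu] at e
    have e1 := P.Q_G 0 ((↑u⁻¹ : X 0 →L[ℝ] X 0) g)
    rw [P.Q_apply] at e1
    exact (eq_sub_of_add_eq' e1).trans e
  refine P.mem_range_LL (by rw [t]; exact isClosed_univ) k fun v hv => ?_
  have h1 := h v
  rw [hv, norm_zero, zero_pow two_ne_zero] at h1
  have h2 : ‖P.i 0 v‖ ^ 2 ≤ 0 := by nlinarith [sq_nonneg ‖P.i 0 v‖]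
  rw [norm_eq_zero.1 (pow_eq_zero_iff two_ne_zero |>.1 (h2.antisymm (sq_nonneg _))), inner_zero_right]

variable {E : Type} [NormedAddCommGroup E] [NormedSpace ℝ E] [FiniteDimensional ℝ E]
  [MeasurableSpace E] [BorelSpace E]
  {HM : Type} [TopologicalSpace HM] {I : ModelWithCorners ℝ E HM} [I.Boundaryless]
  {M : Type} [TopologicalSpace M] [ChartedSpace HM M] [IsManifold I ∞ M]
  [MeasurableSpace M] [T2Space M] [BorelSpace M] [SecondCountableTopology M]
  {ι ι' : Type} [Fintype ι] [Fintype ι']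
  {U V W : Type} [NormedAddCommGroup U] [InnerProductSpace ℝ U] [FiniteDimensional ℝ U]
  [NormedAddCommGroup V] [InnerProductSpace ℝ V] [FiniteDimensional ℝ V]
  [NormedAddCommGroup W] [InnerProductSpace ℝ W] [FiniteDimensional ℝ W]
  {F0 : Fr I M ι'} {F G : Fr I M ι} {A : Op M ι V W} {c : ℝ}

/-- **a coercive adjoint** -/
theorem surj (h : Tw F0 G) (hA : Nc F0.toPre G.P A) (cl : (A.adj G).CliffL G) (hc : 0 < c)
    (co : ∀ w : Sec I A.q, c * ∫ x, ‖w.1 x‖ ^ 2 ∂G.μ ≤ ∫ x, ‖(A.adj G).app G w.1 x‖ ^ 2 ∂G.μ) (k : ℕ) :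
    Surjective (LH F0.toPre G.toPre k A.p A.q A) := by
  obtain ⟨C, h1, h2⟩ := h.good hA
  obtain ⟨C', h3⟩ := du_of h1 h2
  have := FiniteDimensional.complete ℝ V
  have := FiniteDimensional.complete ℝ W
  have s : Surjective (A.H G k) := fun f => by
    refine (LL_surj ((h3.2 cl).half (reg W G)) hc (fun v => ?_) k f).elim fun x hx => ⟨_, hx⟩
    change c * ‖G.incl 1 0 A.q v‖ ^ 2 ≤ ‖(A.adj G).H G 0 v‖ ^ 2
    induction v using H_ind with
    | hP => exact isClosed_le (by fun_prop) (by fun_prop)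
    | h w =>
      rw [H_toH (h3.2 cl).g, ← real_inner_self_eq_norm_sq, ← real_inner_self_eq_norm_sq, inner_toH]
      erw [incl_toH zero_le_one, inner_toH]
      simpa only [Pre.ip, real_inner_self_eq_norm_sq, LS_val] using co w
  rw [h.conj hA k, ContinuousLinearMap.coe_comp, ContinuousLinearMap.coe_comp]
  exact (chg k A.q h.cmp).symm.surjective.comp (s.comp (chg (k + 1) A.p h.cmp).surjective)

theorem tr_pr2 (S : V →L[ℝ] W) (S' : V →L[ℝ] U) (w : U) : Op.tr (pr2 S S') (i2 W U w) = Op.tr S' w :=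
  ext_inner_left ℝ fun v => by
    simp only [inner_tr, inner2, f2_i2, s2_i2, s2_pr2, inner_zero_right, zero_add]

theorem sm_tr {S : M → V →L[ℝ] W} (h : Sm I S) : Sm I fun x => Op.tr (S x) :=
  (trL V W).contMDiff.comp h

theorem adj_pair {A' : Op M ι V U} (hA : ∀ a, Sm I (A.σ a)) (hA' : ∀ a, Sm I (A'.σ a))
    (e : A'.p = A.p) {w : M → U} (hw : Sm I w) (x : M) :
    ((pair A A').adj F).app F (fun y => i2 W U (w y)) x = (A'.adj F).app F w x := by
  have s : ∀ a, Sm I fun y => pr2 (A.σ a y) (A'.σ a y) := fun a =>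
    (contMDiff_const.clm_comp (hA a)).add (contMDiff_const.clm_comp (hA' a))
  have e1 : ∀ a, F.D a (fun y => i2 W U (w y)) x = i2 W U (F.D a w x) := fun a => dv_clm _ (md hw x)
  have e2 : ∀ a, F.D a (fun y => Op.tr (pr2 (A.σ a y) (A'.σ a y))) x (i2 W U (w x)) =
      F.D a (fun y => Op.tr (A'.σ a y)) x (w x) := fun a =>
    (dv_clm (ContinuousLinearMap.apply ℝ V (i2 W U (w x))) (md (sm_tr (s a)) x)).symm.trans
      ((congrArg (fun f => dv I (F.e a) f x) (funext fun y => tr_pr2 _ _ _)).trans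
        (dv_clm (ContinuousLinearMap.apply ℝ V (w x)) (md (sm_tr (hA' a)) x)))
  simp only [Op.app, Pre.op, Op.adj, Map77.pair, e1, _root_.neg_apply, tr_pr2, e,
    ContinuousLinearMap.comp_apply, sub_apply, _root_.sum_apply, _root_.add_apply, smul_apply, e2]

theorem cliff_pair {A' : Op M ι V U} (h : ((pair A A').adj F).CliffL F) : (A'.adj F).CliffL F :=
  fun a b x v w => by
    simpa only [Op.adj, Map77.pair, _root_.neg_apply, tr_pr2, inner2, f2_i2, s2_i2, s2_ps,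
      inner_zero_right, zero_add] using h a b x (i2 W U v) (i2 W U w)

theorem norm_sy (cl : A.CliffL F) (χ : M → ℝ) {x : M} {v : V} (hv : A.p x v = v) :
    ‖sy F A χ x v‖ ^ 2 = (∑ a, F.D a χ x ^ 2) * ‖v‖ ^ 2 := by
  have e : ∑ a, ∑ b, F.D a χ x * (F.D b χ x * ⟪A.σ a x v, A.σ b x v⟫_ℝ) =
      ∑ a, ∑ b, F.D a χ x * (F.P a b x * F.D b χ x) * ‖v‖ ^ 2 :=
    Finset.sum_congr rfl fun a _ => Finset.sum_congr rfl fun b _ => by
      have := cl a b x v v
      rw [hv, real_inner_self_eq_norm_sq, real_inner_comm (A.σ a x v)] at this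
      rw [show ⟪A.σ a x v, A.σ b x v⟫_ℝ = F.P a b x * ‖v‖ ^ 2 by linarith]; ring
  have e1 := fun a => sum_P_D F a χ x
  simp only [smul_eq_mul] at e1
  simp only [← Finset.sum_mul, ← Finset.mul_sum, e1, ← sq] at e
  rw [← e, ← real_inner_self_eq_norm_sq]
  simp only [sy, _root_.sum_apply, smul_apply, sum_inner, inner_sum, real_inner_smul_left,
    real_inner_smul_right, Finset.mul_sum]
  exact Finset.sum_congr rfl fun a _ => Finset.sum_congr rfl fun b _ => by rw [real_inner_comm]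

/-- the adjoint for the weighted measure -/
theorem adj_wt {ψ : M → ℝ} (h : Wt F G ψ) (ha : Alg F.P A) {w : M → W} (hw : Sm I w) (x : M) :
    Real.exp (ψ x) • (A.adj G).app G w x = (A.adj F).app F (fun y => Real.exp (ψ y) • w y) x +
      sy F (A.adj F) ψ x (Real.exp (ψ x) • w x) := by
  have e : ∀ a v, A.p x (Op.tr (A.σ a x) v) = Op.tr (A.σ a x) v := fun a v =>
    neg_injective ((map_neg _ _).symm.trans ((ha.adj F).qσ a x v))
  rw [app_smul (sm_exp h.sm) hw]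
  simp only [Op.app, Pre.op, Op.adj, sy, h.toWtP.D, h.dv, D_exp F.toPre h.sm, _root_.neg_apply,
    ContinuousLinearMap.comp_apply, sub_apply, _root_.sum_apply, _root_.add_apply, smul_apply,
    map_sub, map_sum, map_add, map_smul, e, add_smul, Finset.sum_add_distrib, smul_add, smul_sub,
    Finset.smul_sum, smul_neg, Finset.sum_neg_distrib, mul_smul, two_smul]
  abel

/-- coercivity survives a small weight -/
theorem coer_wt {ψ : M → ℝ} (h : Wt F G ψ) (ha : Alg F.P A) (cl : (A.adj F).CliffL F)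
    (sσ : ∀ a, Sm I ((A.adj F).σ a)) (sB : Sm I (A.adj F).B)
    (hψ : ∀ x, ∑ a, F.D a ψ x ^ 2 ≤ 1 / 4)
    (co : ∀ w : Sec I A.q, 1 / 2 * ∫ x, ‖w.1 x‖ ^ 2 ∂F.μ ≤ ∫ x, ‖(A.adj F).app F w.1 x‖ ^ 2 ∂F.μ)
    (w : Sec I A.q) :
    1 / 24 * ∫ x, ‖w.1 x‖ ^ 2 ∂G.μ ≤ ∫ x, ‖(A.adj G).app G w.1 x‖ ^ 2 ∂G.μ := by
  let v := Ell97.cut (sm_exp h.sm) w
  have e : ∀ (x) {N : Type} [NormedAddCommGroup N] [NormedSpace ℝ N] (u : N),
      Real.exp (2 * ψ x) • ‖u‖ ^ 2 = ‖Real.exp (ψ x) • u‖ ^ 2 := fun x N _ _ u => by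
    rw [norm_smul, mul_pow, Real.norm_eq_abs, sq_abs, ← Real.exp_nat_mul]; rfl
  have sa : Sm I ((A.adj F).app F v.1) := sm_op sσ sB v.2.1
  have ca : HasCompactSupport ((A.adj F).app F v.1) :=
    v.2.2.1.of_isClosed_subset (isClosed_tsupport _) (tsupport_op _ _ _)
  have sb : Sm I fun x => sy F (A.adj F) ψ x (v.1 x) :=
    (contMDiff_finsetSum fun a _ => (F.sm_D h.sm a).smul (sσ a)).clm_apply v.2.1
  have cb : HasCompactSupport fun x => sy F (A.adj F) ψ x (v.1 x) :=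
    v.2.2.1.mono fun x hx k => hx (by simp [k])
  have i : ∀ {N : Type} [NormedAddCommGroup N] [NormedSpace ℝ N] {u : M → N}, Sm I u →
      HasCompactSupport u → Integrable (fun x => ‖u x‖ ^ 2) F.μ := fun hu hc =>
    int_sq (FL_of_hcs (F := F.toPre) 0 hu hc)
  simp only [h.toWtP.integral, e, adj_wt h ha w.2.1]
  have k := integral_mono (((i sa ca).const_mul (1 / 4)).sub ((i v.2.1 v.2.2.1).const_mul (1 / 12)))
    (i (sa.add sb) (ca.add cb)) fun x => by
      have h1 := norm_sy cl ψ (v.2.2.2 x)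
      have h2 := mul_le_mul_of_nonneg_right (hψ x) (sq_nonneg ‖v.1 x‖)
      have h3 := norm_sub_le ((A.adj F).app F v.1 x + sy F (A.adj F) ψ x (v.1 x))
        (sy F (A.adj F) ψ x (v.1 x))
      rw [add_sub_cancel_right] at h3
      have h4 := pow_le_pow_left₀ (norm_nonneg _) h3 2
      simp only [Pi.sub_apply, Pi.add_apply]
      nlinarith [sq_nonneg (3 * ‖(A.adj F).app F v.1 x + sy F (A.adj F) ψ x (v.1 x)‖ -
        ‖sy F (A.adj F) ψ x (v.1 x)‖)]
  rw [integral_sub' ((i sa ca).const_mul _) ((i v.2.1 v.2.2.1).const_mul _), integral_const_mul,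
    integral_const_mul] at k
  have := co v
  change 1 / 24 * ∫ x, ‖v.1 x‖ ^ 2 ∂F.μ ≤
    ∫ x, ‖(A.adj F).app F v.1 x + sy F (A.adj F) ψ x (v.1 x)‖ ^ 2 ∂F.μ
  simp only [Pi.add_apply] at k
  linarith

end Crest.Agent.X212.Cok75
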