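import Crest.Agent.X212.Cok75.Main
import Crest.Agent.X212.Nt66.Defs

/-! # Row 212, NT-CKI: the curvature equation inside a lens wall is onto -/

set_option autoImplicit false
set_option linter.unusedSectionVars false
noncomputable section
open scoped Manifold ContDiff Topology InnerProductSpace NNReal
open MeasureTheory Set Function Filter

namespace Crest.Agent.X212.Cok75

section fam
open An An.Pre Sob92 Ell97 Prm93 Mod61 Map77 Nk89
variable {E : Type} [NormedAddCommGroup E] [NormedSpace ℝ E] [FiniteDimensional ℝ E]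
  [MeasurableSpace E] [BorelSpace E]
  {HM : Type} [TopologicalSpace HM] {I : ModelWithCorners ℝ E HM} [I.Boundaryless]
  {M : Type} [TopologicalSpace M] [ChartedSpace HM M] [IsManifold I ∞ M]
  [MeasurableSpace M] [T2Space M] [BorelSpace M] [SecondCountableTopology M]
  {κ : Type} [Fintype κ] {lam : Type} [Fintype lam]
  {T : Type} [NormedAddCommGroup T] [NormedSpace ℝ T] {r n m k : ℕ}
  {𝔉 : Fam I M (Option κ) lam T} {δ : ℝ} {o : Ref 𝔉}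

theorem Fg_congr (m : Md M κ lam) (F : Fr I M κ) {W W' : m.Cn} {x : M}
    (e : ∀ a, W a =ᶠ[𝓝 x] W' a) : m.Fg F W x = m.Fg F W' x := by
  simp only [Md.Fg, Wz78.curv, dv_congr (e _), (e _).eq_of_nhds]

/-- the curvature row is onto by connections alone -/
theorem ontoC (X : Ends 𝔉 δ) (hk : 6 ≤ k) (y : Pnt o r) (h0 : ∀ x ∈ 𝔉.Om, y.cfg.Φ x = 0)
    (hp : ∀ x ∈ 𝔉.Om, Lns95.PosW 𝔉.B (𝔉.G y.t) (1 / 2) x)
    (hA : ∀ x ∈ 𝔉.Om, o.m.p2 𝔉.B x (o.m.Fg (𝔉.G y.t).F (o.W y.t y.α) x) = 0)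
    {f : o.C r k → o.Y n m k} (hf : RepF (𝔉.eq0 r n m) f) (w : 𝔉.F0.H k o.P2) :
    ∃ α, (fderiv ℝ f (y.pt k) (α, 0, 0)).2.1 = w := by
  have h := adj_rem X.ok
  have S := sup0 X.ok
  have hΩ := X.ok.Om
  have H0 := h.hy o y.ht
  have H1 := hy_Ω o X.ok hΩ (h.tw _ y.ht) (h.P _ y.ht)
  have mC : Maps (bΩ 𝔉.Om o).pC (bd o).pC fun _ => ContinuousLinearMap.id ℝ _ := fun x v hv =>
    ext2 (by have := congrArg (f2 _ _) hv; rw [f2_ps] at this ⊢; exact this) (by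
      have e : s2 _ _ v = 0 := by rw [← hv, s2_ps, sp_Ω]; rfl
      rw [s2_ps, ContinuousLinearMap.id_apply, e, map_zero])
  have cu : 𝔉.F0.Cb (base (o.W y.t y.α) (0 : M → o.m.V)) := by
    convert Cb_clm (i1 _ o.m.V ∘L f2 _ o.m.V) (cb_uy X.ok y) using 2 with x
    exact ext2 (by simp [uy, base]) (by simp [base])
  have key := RepT_eq (RepT_comp (rep_sH (p := o.Pm) (q := o.P2)) (RepT_comp
    (H0.toTw.rep (H0.nc_lin (cb_uy X.ok y)) k) (rep_mulH (k := k + 1) (Cb_const _) mC)))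
    (RepT_comp (rep_sH (p := (bΩ 𝔉.Om o).sm) (q := o.P2)) (H1.toTw.rep (H1.nc_lin cu) k))
    fun u => funext fun x => by
    have pu : ∀ x, (bd o).pC x (u.1 x) = u.1 x := fun x => mC x _ (u.2.2.2 x)
    refine (congrArg (s2 _ _) (op_cut _ (Cb.sm H0.cC) u.2.1 pu x)).trans
      (Eq.trans ?_ (congrArg (s2 _ _) (op_cut _ (Cb.sm H1.cC) u.2.1 u.2.2.2 x)).symm)
    rw [s2_ps, s2_ps]
    by_cases hx : x ∈ 𝔉.Om
    · have e0 : (o.Φ0 + y.φ) x = 0 := h0 x hx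
      have e : uy y x = base (o.W y.t y.α) 0 x := by simp only [uy, base, e0, Pi.zero_apply]
      simp only [Pre.op, e]
      rfl
    · have z : (bd o).p2 x = 0 := p2_off (o := o) hx
      rw [p2_off hx, z, _root_.zero_apply, _root_.zero_apply]
  obtain ⟨x', hx'⟩ := surj_Ω X hΩ y hp hA k (iH2 _ _ (bΩ 𝔉.Om o).sm o.P2 w)
  obtain ⟨Z, hZ⟩ : ∃ Z, Z = 𝔉.F0.mulH (k + 1) (bΩ 𝔉.Om o).pC (bd o).pC
    (fun _ => ContinuousLinearMap.id ℝ _) x' := ⟨_, rfl⟩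
  have vZ : ∀ z, 𝔉.F0.val _ _ Z z = 𝔉.F0.val _ _ x' z := fun z =>
    hZ ▸ val_mulH S (by omega) (Cb_const _) mC x' z
  have vS : ∀ z, 𝔉.F0.val _ _ (SH (k + 1) o (𝔉.Si y.t) Z) z = SC o (𝔉.Si y.t) z (𝔉.F0.val _ _ x' z) :=
    fun z => (val_mulH S (by omega) ((sb_SC o X.ok.sSi).cb _ y.ht)
      (maps_SC o X.ok (X.ok.PSi _ y.ht)) Z z).trans (congrArg _ (vZ z))
  have z2 : (sC' o r k y.t Z).2 = 0 := Prod.ext (by
    refine val_injective S (by omega : 4 ≤ k + 1) ((funext fun z => ?_).trans val_zero.symm)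
    refine (val_mulH S (by omega) (Cb_const _) maps_s2 _ z).trans ?_
    refine (congrArg (s2 _ _) (vS z)).trans ?_
    rw [SC, s2_sm2, ← val_proj S (by omega) x' z, s2_ps, sp_Ω]
    rfl) rfl
  have bl : Bl 𝔉.Om (𝔉.eq0 r n m) y := fun _ _ _ => ⟨fun _ _ => (sub_self _).trans (sub_self _).symm,
    fun _ _ => (sub_self _).trans (sub_self _).symm, rfl, rfl⟩
  have e := (fd_eq h hk hΩ bl hf (v := sC' o r k y.t Z) (fun z hz => by
    refine (val_mulH S (by omega) (Cb_const _) maps_f2 _ z).trans ?_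
    refine (congrArg (f2 _ _) (vS z)).trans ?_
    rw [pC_off hz (val_proj S (by omega) x' z), map_zero, map_zero]) z2).trans (h.fderiv_f0 hk y Z)
  have e1 : sH _ _ o.Pm o.P2 ((bd o).LL 𝔉.F0.toPre (Fs 𝔉 y.t) k (uy y) Z) = w :=
    (congrArg _ (congrArg _ hZ)).trans (((DFunLike.congr_fun key x').trans
      (congrArg (sH _ _ _ _) hx')).trans (sH_iH2 _))
  refine ⟨(sC' o r k y.t Z).1, ?_⟩
  rw [show ((sC' o r k y.t Z).1, 0, 0) = sC' o r k y.t Z from Prod.ext rfl z2.symm, e]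
  exact e1

end fam

open An M Nd18 Mod61 Nk89 Cht98 Rf65 Eqv71 Pte3 Nt66
open An.Job (SolOn unc_of isClopen_un)

section job
variable {Wi : Type} {X : Mf 4} {A κ lam : Type} [Fintype A] [Fintype κ] [Fintype lam]
  [DecidableEq lam] {M : Mark X A κ} {W : World M} {N : ML M lam} {Λ : Lns W N}
  {A' h : Type} [Fintype A'] [DecidableEq A'] [Fintype h] {r n m : ℕ}
  {J : Job Wi Λ A' h r n} {c : M.Cl} {σ : Cel A'} {q : Wi →₀ ℝ} {π : Reg A}
  {p : Prt A A' h} {U : Type} [Fintype U] {δ : ℝ} {b : Bp J c} {E : EC b p U δ}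

theorem cki_job (H : CS σ E) (h1 : {π} ⊆ p.P) (h2 : {π} ⊆ p.P') {y : J.Obc c} {x : Pnt E.o r}
    {ψ : E.K} (S : SolOn p σ q y) (R : E.RepC y x ψ) (z : E.o.Φ0 = 0) (nf : ¬y.TF π)
    (hp : ∀ z ∈ W.pc c π, Lns95.PosW (J.B c) (J.G c (b.θ p U x.t)) (1 / 2) z)
    (Q : J.Qt c (b.θ p U x.t) π) {g : (rf E x.t {π} {π} ∅).C r 8 → (rf E x.t {π} {π} ∅).Y n m 8}
    (hg : RepF ((b.F (sp p {π} {π} ∅) U δ).eq0 r n m) g) (e) :
    ∃ α, (fderiv ℝ g ((rx H x h1 h2 ∅).pt 8) (α, 0, 0)).2.1 = e := by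
  have cl : IsClopen (W.un c {π}) := isClopen_un fun ρ k => H.pok.pc ρ (h1 k)
  have hz' : ∀ z ∈ W.un c {π}, z ∈ W.pc c π := fun z hz => un_one W.toCaps c _ ▸ hz
  have hu : W.un c {π} ⊆ W.un c p.P := biUnion_subset_biUnion_left h1
  obtain ⟨u, ζ, k, -⟩ := R.e
  have z0 : ∀ z ∈ W.un c {π}, x.cfg.Φ z = 0 := fun z hz => (k.Φ z (hu hz)).trans (by
    rw [Job.Obc.zero nf (hz' z hz), map_zero, ← csL_apply, map_zero])
  have Y : Ends (b.F (sp p {π} {π} ∅) U δ) δ :=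
    jEnds H.ok b.br b.O (sm_θ b) cl cl subset_rfl H.eo.d0 H.eo.d1
  refine ontoC Y (by norm_num) (rx H x h1 h2 ∅) (fun w hw => ?_) (fun w hw => hp w (hz' w hw))
    (fun w hw => ?_) hg e
  · exact (congrArg₂ (· + ·) (congrFun z w).symm (indicator_of_mem hw _)).trans (z0 w hw)
  have := ((tot_ev (δ := δ) x.cfg).2.1 w).symm.trans ((H.zr S R.s k).C w (hu hw))
  rw [Cfg.eC, (Q q _ w (hz' w hw)).2, z0 w hw, sub_zero, show x.cfg.m.mu (J.B c) w 0 0 = 0 by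
    simp [Md.mu, ← Wz78.qL_apply, WithLp.toLp_zero, Pi.zero_def.symm], sub_zero] at this
  have e : ∀ a, (rx H x h1 h2 ∅).cfg.W a =ᶠ[𝓝 w] x.cfg.W a := fun a =>
    (cl.2.eventually_mem hw).mono fun w hw => by
      refine congrArg₂ (· + ·) ?_ (congrArg (fun v => opL (idx _ _ v a)) (indicator_of_mem hw _))
      rw [(rf E x.t _ _ ∅).A_eq]
      rfl
  exact (congrArg (E.o.m.p2 (J.B c) w) (Fg_congr E.o.m _ e)).trans this

end job

section scene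
open G75 Ins26 Jb7 Lns95
variable {κ lam : Type} [Fintype κ] [Fintype lam] [DecidableEq lam] {Lm : LM κ lam}

/-- **LEAF NT-CKI** -/
theorem cki {n' : ℕ} (K : LOK Lm n') : NfStmt Lm Cki := fun S D i Wi r n J X _ _ _ _ c gx _ pj =>
  ⟨1, one_pos, fun δ _ => Sml.of fun Adm σ q y l b E x ψ C _ g hg e => by
  have f := C.fa.1
  have hy := C.sol
  have H := C.cs
  have hx : l.1 ∈ c.1 := f.2.1.ge rfl
  have cx : l.1 ∈ cylW c := ⟨hx, f.2.2.1⟩
  have pc := H.pok.pc _ (.inr rfl)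
  have e0 : hp l.1 false l = some false := Mp86.St.hp_some.2 ⟨rfl, rfl⟩
  have o := H.ovx x
  refine cki_job (y := y) H sub_in sub_in ⟨hy.cell, hy.inf, hy.sol.toAdm,
    fun z hz => ?_, fun z _ => hy.sol.D z, fun z _ => hy.sol.C z, hy.sol.S,
    fun i hi => hy.cut i (hy.H_eq f.2.2.2.1.1 ▸ unc_of H.pok.pc (H.pok.nb i hi)),
    fun a b ha _ => hy.lim a b ha, fun a ha b _ => hy.crit a ha b, hy.int.integrableOn⟩
    C.gd.ch.rep C.gd.ch.z C.fa.2.1 (fun z hz => K.posW gx.sc D l (gx.ok.memBr H.mem o)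
      ((show (J.Θ _).2 l.1 = 1 from o.2.ge hx) ▸ one_ne_zero) i Lns4.neck (gx.ok.memO H.mem o) J.m
      (pc_in gx.sc l.2 e0 pc.toIsReg _ c ▸ hz)) (C.θ ▸ qt_in gx.sc l.2 e0 gx.ok H.mem pc hy.ov
    ⟨(pj.nil _ cx).1.J0, (pj.nil _ cx).1.J2, congrFun (pj.nil _ cx).2⟩ fun w => (em _).imp id fun k =>
    ⟨_, fun z hz => by simpa [Sys.cores, f.2.1] using fun h => h true hz, (gx.van σ H.mem y.s hy.cell l
      (gx.ok.eq_one H.mem hy.ov (by rw [gx.hd]; exact if_pos (.inr (.inl l.2))) hx) w).1 k,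
      (S.M.sys.w l).dj⟩) hg e
  obtain ⟨π, h2, h3⟩ := Cyl58.exists_pc D.W.toCaps z
  exact (hz (mem_un.2 ⟨π, Mp86.St.eq_hp (f.2.1 ▸ h2), h3⟩)).elim⟩

end scene

end Crest.Agent.X212.Cok75
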