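import Crest.Agent.X212.Cok75.Abs
import Crest.Agent.X212.Wz78.Boch
import Crest.Agent.X212.Lns95.Pos

/-! # Row 212, RF-COK: the Weitzenboeck bound on `Λ⁺ ⊗ g` at an anti-self-dual connection -/

set_option linter.unusedSectionVars false
open scoped Manifold ContDiff Topology InnerProductSpace
open Finset MeasureTheory
noncomputable section
namespace Crest.Agent.X212.Cok75
open An Sob92 Map77 Ell97 Wz78 Lns95

section alg
variable {ι : Type} [Fintype ι]

theorem rm_term {R : ι → ι → ι → ι → ℝ} (h : Curv R) {T : ι × ι → ι × ι → ℝ}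
    (hT : ∀ a k t, T (a, k) t = -T (k, a) t) :
    2 * ∑ a, ∑ b, ∑ k, ∑ j, R a b k j * T (a, k) (b, j) =
      ∑ s, ∑ t, R s.1 s.2 t.1 t.2 * T s t := by
  have e1 : ∑ a, ∑ b, ∑ k, ∑ j, R a b k j * T (a, k) (b, j) =
      ∑ a, ∑ k, ∑ b, ∑ j, R a b k j * T (a, k) (b, j) := sum_congr rfl fun a _ => sum_comm
  have e2 : ∑ a, ∑ k, ∑ b, ∑ j, R a b k j * T (a, k) (b, j) =
      ∑ a, ∑ k, ∑ b, ∑ j, -(R k b a j * T (a, k) (b, j)) := by
    rw [sum_comm]
    exact sum_congr rfl fun a _ => sum_congr rfl fun k _ => sum_congr rfl fun b _ =>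
      sum_congr rfl fun j _ => by rw [hT k a]; ring
  rw [e1, two_mul]
  nth_rewrite 2 [e2]
  simp only [Fintype.sum_prod_type, ← sum_add_distrib]
  refine sum_congr rfl fun a _ => sum_congr rfl fun k _ => sum_congr rfl fun b _ =>
    sum_congr rfl fun j _ => ?_
  have := h.bi a b k j
  have := h.s12 k b a j
  have := h.s12 a k b j
  rw [show R a k b j = R a b k j - R k b a j by linarith]; ring

variable {P : ι → ι → ℝ} {U : Fin 4 → ι → ℝ}

theorem wq_c (h : On0 P U) (p q r s : Fin 4) (a b : ι) : ∑ k, wq U p q a k * wq U r s b k =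
    U p a * U r b * (if q = s then 1 else 0) - U p a * U s b * (if q = r then 1 else 0)
      - U q a * U r b * (if p = s then 1 else 0) + U q a * U s b * if p = r then 1 else 0 := by
  simp only [← h.on, mul_sum, ← sum_sub_distrib, ← sum_add_distrib, wq]
  exact sum_congr rfl fun k _ => by ring

theorem sdb_c (h : On0 P U) (i j : Fin 3) : ∃ (c : ℝ) (d : Fin 3 → ℝ), ∀ a b,
    ∑ k, sdb U i (a, k) * sdb U j (b, k) = c * P a b + ∑ l, d l * sdb U l (a, b) := by
  refine ⟨if i = j then 1 else 0, fun l => (if j = i + 1 ∧ l = i + 2 then 1 else 0)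
    - if j = i + 2 ∧ l = i + 1 then 1 else 0, fun a b => ?_⟩
  fin_cases i <;> fin_cases j <;>
    simp [sdb, add_mul, mul_add, sum_add_distrib, wq_c h, ← h.pr, Fin.sum_univ_four]
      <;> (try simp only [wq]) <;> ring

theorem f_term (h : On0 P U) {V : Type} [NormedAddCommGroup V] [InnerProductSpace ℝ V]
    (c : Fin 3 → V) {f : ι × ι → V →L[ℝ] V} (h0 : ∑ s : ι × ι, P s.1 s.2 • f s = 0)
    (h1 : ∀ l, ∑ s, sdb U l s • f s = 0) :
    ∑ a, ∑ b, ∑ k, ⟪∑ i, sdb U i (a, k) • c i, f (a, b) (∑ i, sdb U i (b, k) • c i)⟫_ℝ = 0 := by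
  have e : ∀ i j, ∑ s : ι × ι, (∑ k, sdb U i (s.1, k) * sdb U j (s.2, k)) * ⟪c i, f s (c j)⟫_ℝ = 0 :=
    fun i j => by
      obtain ⟨c₀, d, hd⟩ := sdb_c h i j
      have k0 := congrArg (fun T : V →L[ℝ] V => ⟪c i, T (c j)⟫_ℝ) h0
      have k1 := fun l => congrArg (fun T : V →L[ℝ] V => ⟪c i, T (c j)⟫_ℝ) (h1 l)
      simp only [_root_.sum_apply, smul_apply, inner_sum, real_inner_smul_right, zero_apply,
        inner_zero_right] at k0 k1
      simp only [hd, add_mul, sum_add_distrib, sum_mul, mul_assoc, ← mul_sum, k0]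
      rw [sum_comm]
      simp [← mul_sum, k1]
  have e2 : ∀ a b, ∑ k, ⟪∑ i, sdb U i (a, k) • c i, f (a, b) (∑ i, sdb U i (b, k) • c i)⟫_ℝ =
      ∑ i, ∑ j, (∑ k, sdb U i (a, k) * sdb U j (b, k)) * ⟪c i, f (a, b) (c j)⟫_ℝ := fun a b => by
    simp only [map_sum, map_smul, sum_inner, real_inner_smul_left]
    simp only [inner_sum, real_inner_smul_right, sum_mul, mul_sum, mul_assoc]
    exact sum_comm.trans (sum_congr rfl fun i _ => sum_comm)
  simp only [e2]
  rw [← Fintype.sum_prod_type', sum_comm]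
  exact sum_eq_zero fun i _ => sum_comm.trans (sum_eq_zero fun j _ => e i j)

end alg

variable {E : Type} [NormedAddCommGroup E] [NormedSpace ℝ E] [FiniteDimensional ℝ E]
  [MeasurableSpace E] [BorelSpace E]
  {HM : Type} [TopologicalSpace HM] {I : ModelWithCorners ℝ E HM}
  {M : Type} [TopologicalSpace M] [ChartedSpace HM M] [IsManifold I ∞ M]
  [MeasurableSpace M] {ι : Type} [Fintype ι] {lam : Type} [Fintype lam]
  {m : Md M ι lam} {B : Base M ι lam} {G : Geo I M ι lam} {W : m.Cn} {x : M}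
  (hB : B.OK I) (hG : G.OK B) (H : m.OK I B) (C : m.IsConn B G W)
include hB hG H C

theorem kA_ge {d : Bd M ι (Fin m.N)} (hp : PosW B G (1 / 2) x)
    (hA : m.p2 B x (m.Fg G.F W x) = 0) {y : P2 m.A (Ef ι (Fin m.N))} (h1 : f2 _ _ y = 0)
    (h2 : f2 _ _ (s2 _ _ y) = 0) {η : Fm (ι × ι) m.A} (hy : s2 _ _ (s2 _ _ y) = η)
    (h3 : m.p2 B x η = η) : 1 / 2 * ‖η‖ ^ 2 ≤ kA d G.F G.F.Gam W x y y := by
  have hg : ∀ s, m.pg x (η s) = η s := fun s => by
    have := p2_mem (B := B) (x := x) η s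
    rw [h3] at this
    exact Submodule.starProjection_eq_self_iff.2 this
  have hs : ∀ s, ∑ t, B.sd x s t • η t = η s := fun s => by
    conv_rhs => rw [← h3]
    simp only [Md.p2, Wz78.idx_apply, hg]
  obtain ⟨U, hU⟩ := b_on hB x
  have e0 : ∀ {V : Type} [AddCommGroup V] [Module ℝ V] (ζ : ι × ι → V) (s : ι × ι),
      ∑ t, B.sd x s t • ζ t = ∑ i, sdb U i s • ((1 / 4 : ℝ) • ∑ t, sdb U i t • ζ t) := fun ζ s => by
    simp only [sd_eq hU, sum_div, sum_smul, smul_sum, smul_smul]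
    exact sum_comm.trans (sum_congr rfl fun _ _ => sum_congr rfl fun _ _ => by congr 1; ring)
  have hF : ∀ l, ∑ t, sdb U l t • m.Fg G.F W x t = 0 := fun l => by
    have k : ∀ s, ∑ i, sdb U i s • ((1 / 4 : ℝ) • ∑ t, sdb U i t • m.Fg G.F W x t) = 0 := fun s => by
      rw [← e0]
      simpa only [Md.p2, Wz78.idx_apply, Submodule.starProjection_eq_self_iff.2 (Fg_mem _ _), Md.pg,
        PiLp.zero_apply] using congrArg (fun z : Fm (ι × ι) m.A => z s) hA
    have := sum_eq_zero (s := univ) fun s _ => (congrArg (sdb U l s • ·) (k s)).trans (smul_zero _)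
    simp only [smul_sum (s := (univ : Finset (Fin 3))), smul_smul _ (sdb U _ _)] at this
    rw [sum_comm] at this
    simp only [← sum_smul, sdb_sdb hU.toOn0] at this
    simpa [smul_smul] using this
  have hP : ∑ s : ι × ι, B.P s.1 s.2 x • m.Fg G.F W x s = 0 := by
    have : ∑ s : ι × ι, B.P s.1 s.2 x • m.Fg G.F W x s = -∑ s : ι × ι, B.P s.1 s.2 x • m.Fg G.F W x s := by
      rw [← sum_neg_distrib, ← (Equiv.prodComm ι ι).sum_comp]
      exact sum_congr rfl fun s _ => by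
        rw [Equiv.prodComm_apply, Fg_swap hG C, smul_neg, Prod.fst_swap, Prod.snd_swap,
          (hB.pr x).symm]
    exact (smul_eq_zero.1 ((two_smul ℝ _).trans (eq_neg_iff_add_eq_zero.1 this))).resolve_left
      two_ne_zero
  have kF := f_term hU.toOn0 (fun i => (1 / 4 : ℝ) • ∑ t, sdb U i t • η t)
    (f := fun s => adcL (opL (m.Fg G.F W x s)))
    (by simp only [← map_smul, ← map_sum, hP, map_zero])
    fun l => by simp only [← map_smul, ← map_sum, hF, map_zero]
  simp only [← e0, hs, adcL_apply] at kF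
  have kR := rm_term ((glc hG).curvT (gfrm hG) (gsep hG) x) (T := fun s t => ⟪η s, η t⟫_ℝ)
    fun a k t => by
      rw [← inner_neg_left, ← hs (a, k), ← hs (k, a), ← sum_neg_distrib]
      simp only [← neg_smul, ← sd_swap hB, Prod.swap_prod_mk]
  have kp := sum_le_sum (s := univ) fun q _ => hp (fun s => η s q) fun s => by
    simpa using congrArg (fun z : m.A => z q) (hs s)
  simp only [kA, h1, h2, hy, adc_curv_g hB hG H C _ _ (hg _), kF, kR, map_zero, inner_zero_right,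
    inner_zero_left, sub_self, sum_const_zero, mul_zero, sub_zero, add_zero,
    real_inner_self_eq_norm_sq]
  rw [PiLp.norm_sq_eq_of_L2]
  simp only [EuclideanSpace.real_norm_sq_eq, PiLp.inner_apply, ← mul_sum, sum_add_distrib] at kp ⊢
  rw [sum_comm (f := fun (s : ι × ι) i => η s i ^ 2)]
  refine kp.trans (le_of_eq (congrArg₂ _ rfl (sum_comm.trans (sum_congr rfl fun s _ =>
    sum_comm.trans (sum_congr rfl fun t _ => ?_)))))
  simp only [← mul_sum, Real.inner_apply]

variable [I.Boundaryless] [T2Space M] [BorelSpace M] [SecondCountableTopology M]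

/-- coercivity of the adjoint of the linearised equations -/
theorem est {Ω : Set M} {d : Bd M ι (Fin m.N)} (C' : Cp d G.F G.F.Gam W) (hs : ∀ x, d.sm x = 0)
    (h2 : ∀ x ∈ Ω, d.p2 x = m.p2 B x) (h3 : ∀ x ∉ Ω, d.p2 x = 0) (hp : ∀ x ∈ Ω, PosW B G (1 / 2) x)
    (hA : ∀ x ∈ Ω, m.p2 B x (m.Fg G.F W x) = 0) (w : Sec I d.pE) :
    1 / 2 * ∫ x, ‖w.1 x‖ ^ 2 ∂G.F.μ ≤
      ∫ x, ‖((d.lin G.F (base W 0)).adj G.F).app G.F w.1 x‖ ^ 2 ∂G.F.μ := by
  classical
  let y : M → P2 m.A (Ef ι (Fin m.N)) := fun x => i2 _ _ (w.1 x)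
  have sy : Sm I y := fun x => SA.clm _ (w.2.1 x)
  have cy : HasCompactSupport y := w.2.2.1.mono fun x hx k => hx (by simp [y, k])
  have py : ∀ x, ps d.g d.pE x (y x) = y x := fun x => ext2 (by simp [y]) (by simp [y, w.2.2.2])
  have hR := riem_of_vol hG.vol
  have R := C'.rp_adj 0
  have b := R.boch C'.lc hR C'.con_cT C'.skew_cC (C'.ok.cliff_full C'.P _).2 C'.sm_pT C'.pT_par
    sy sy cy py py
  have h0 : Op.tr (0 : CL (Cf ι (Fin m.N)) (P2 m.A (Ef ι (Fin m.N)))) = 0 := by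
    rw [← trL_apply, map_zero]
  simp only [hR.dft C'.lc, zero_smul, sum_const_zero, add_zero, ContinuousLinearMap.comp_apply,
    zf_zero (hR.dft C'.lc · _) (Pi.zero_apply _), h0, zero_apply, map_zero, sub_zero] at b
  have e : ∀ x, ((d.full G.F (base W 0)).adj G.F).app G.F y x =
      ((d.lin G.F (base W 0)).adj G.F).app G.F w.1 x :=
    adj_pair (C'.rp_row 0).sy.sm (C'.rp_lin 0).sy.sm rfl w.2.1
  simp only [← e, ← real_inner_self_eq_norm_sq]
  rw [b, ← integral_const_mul]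
  have n := fun a => sm_nab (F := G.F) C'.con_cT.sm a sy
  refine integral_mono ((integ (fun x => SA.inner (w.2.1 x) (w.2.1 x))
    (hcs_inner _ w.2.2.1)).const_mul _) ((integrable_finsetSum _ fun a _ => integ
      (fun x => SA.inner (n a x) (n a x)) (hcs_inner _ (hcs_nab a cy))).sub
      ((integrable_finsetSum _ fun a _ => integrable_finsetSum _ fun b _ => integ
        (fun x => SA.inner ((R.sy.sm a x).app (sy x)) ((R.sy.sm b x).app
          (SA.app (sm_curv (F := G.F) C'.con_cT.sm a b x) (sy x))))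
        (hcs_inner _ (cy.mono fun x hx k => hx (by simp [k])))).const_mul _)) fun x => ?_
  have k1 : f2 _ _ (w.1 x) = 0 := by rw [← w.2.2.2 x, f2_ps, hs, zero_apply]
  have k2 : d.p2 x (s2 _ _ (w.1 x)) = s2 _ _ (w.1 x) := by rw [← s2_ps, w.2.2.2]
  have k3 : 0 ≤ ∑ a, ⟪nab I G.F.e (cT G.F G.F.Gam W) a y x, nab I G.F.e (cT G.F G.F.Gam W) a y x⟫_ℝ :=
    sum_nonneg fun a _ => real_inner_self_nonneg
  simp only [C'.curv_term' (py x) (py x), inner2 (w.1 x), k1, inner_zero_left, zero_add,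
    real_inner_self_eq_norm_sq (s2 _ _ (w.1 x))]
  by_cases hx : x ∈ Ω
  · have := kA_ge hB hG H C (d := d) (hp x hx) (hA x hx) (y := y x) (by simp [y]) (by simp [y, k1])
      (η := s2 _ _ (w.1 x)) (by simp [y]) (h2 x hx ▸ k2)
    linarith
  · have k4 : s2 _ _ (w.1 x) = 0 := by rw [← k2, h3 x hx, zero_apply]
    have : y x = 0 := by rw [show y x = i2 _ _ (w.1 x) from rfl, ext2 (k1.trans (map_zero _).symm)
      (k4.trans (map_zero _).symm), map_zero]
    simpa [k4, this, kA] using k3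

end Crest.Agent.X212.Cok75
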